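import Vale.Agent.P181.H106.Tail2G

/-!
P181: almost all partitions have many columns whose lengths lie in a given window `[m, 2 m)`.
-/

set_option autoImplicit false

namespace Vale.Agent.P181.H186

open Finset Vale.Agent.P181.H676

/-- Add `k j` columns of length `m + j` and `T` boxes in the first row. -/
def upw {n m : ℕ} (T : ℕ) (l : Fin (n + 1) → ℕ) (k : Fin m → ℕ) : Fin (n + 1) → ℕ := fun i =>
  l i + (∑ j : Fin m, if (i : ℕ) < m + j then k j else 0) + if (i : ℕ) = 0 then T else 0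

theorem upw_anti {n m : ℕ} (T : ℕ) {l : Fin (n + 1) → ℕ} (k : Fin m → ℕ) (hl : Antitone l) :
    Antitone (upw T l k) := by
  intro i i' hii
  have h0 : (i : ℕ) ≤ i' := hii
  simp only [upw]
  have h1 := hl hii
  have h2 : (∑ j : Fin m, if (i' : ℕ) < m + j then k j else 0) ≤
      ∑ j : Fin m, if (i : ℕ) < m + j then k j else 0 := by
    apply Finset.sum_le_sum
    intro j _
    by_cases h : (i' : ℕ) < m + j
    · rw [if_pos h, if_pos (by omega)]
    · rw [if_neg h]
      exact Nat.zero_le _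
  have h3 : (if (i' : ℕ) = 0 then T else 0) ≤ if (i : ℕ) = 0 then T else 0 := by
    by_cases h : (i' : ℕ) = 0
    · rw [if_pos h, if_pos (by omega)]
    · rw [if_neg h]
      exact Nat.zero_le _
  exact Nat.add_le_add (Nat.add_le_add h1 h2) h3

theorem upw_sum {n m : ℕ} (T : ℕ) (l : Fin (n + 1) → ℕ) (k : Fin m → ℕ) (h : 2 * m ≤ n + 2) :
    ∑ i, upw T l k i = ∑ i, l i + ∑ j : Fin m, (m + j) * k j + T := by
  simp only [upw]
  rw [Finset.sum_add_distrib, Finset.sum_add_distrib]
  have h4 : ∑ i : Fin (n + 1), (∑ j : Fin m, if (i : ℕ) < m + j then k j else 0) =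
      ∑ j : Fin m, (m + j) * k j := by
    rw [Finset.sum_comm]
    apply Finset.sum_congr rfl
    intro j _
    rw [← Finset.sum_filter, Finset.sum_const, smul_eq_mul]
    congr 1
    have hj := j.2
    have h5 : univ.filter (fun i : Fin (n + 1) => (i : ℕ) < m + j) =
        Finset.Iic (⟨m + j - 1, by omega⟩ : Fin (n + 1)) := by
      ext i
      rw [Finset.mem_filter, Finset.mem_Iic, Fin.le_def]
      simp only [Finset.mem_univ, true_and]
      omega
    rw [h5, Fin.card_Iic]
    simp only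
    omega
  have h6 : ∑ i : Fin (n + 1), (if (i : ℕ) = 0 then T else 0) = T := by
    rw [Finset.sum_eq_single (⟨0, by omega⟩ : Fin (n + 1))]
    · rw [if_pos rfl]
    · intro i _ hi
      rw [if_neg]
      intro h
      exact hi (Fin.ext h)
    · intro h
      exact absurd (Finset.mem_univ _) h
  rw [h4, h6]

theorem nx_upw {n m : ℕ} (T : ℕ) (l : Fin (n + 1) → ℕ) (k : Fin m → ℕ) (h : 2 * m ≤ n + 2)
    {d : ℕ} (hd : d ≤ n + 1) (hd0 : 0 < d) :
    nx (upw T l k) d = nx l d + ∑ j : Fin m, if d < m + j then k j else 0 := by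
  unfold nx
  by_cases h1 : d < n + 1
  · rw [dif_pos h1, dif_pos h1]
    simp only [upw]
    rw [if_neg (by omega), Nat.add_zero]
  · rw [dif_neg h1, dif_neg h1, Nat.zero_add]
    symm
    apply Finset.sum_eq_zero
    intro j _
    rw [if_neg (by have := j.2; omega)]

/-- the relative window profile of a partition -/
def prof {n : ℕ} (m : ℕ) (l : Fin (n + 1) → ℕ) (j : Fin m) : ℕ :=
  (nx l (m - 1 + (Fin.rev j : Fin m)) - nx l (2 * m - 1)) + j

theorem prof_mono {n m : ℕ} {l : Fin (n + 1) → ℕ} (hl : Antitone l) : StrictMono (prof m l) := by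
  intro j j' hjj
  simp only [prof]
  have h2 : (j : ℕ) < j' := hjj
  have h1 : nx l (m - 1 + (Fin.rev j : Fin m)) ≤ nx l (m - 1 + (Fin.rev j' : Fin m)) := by
    apply nx_antitone hl
    rw [Fin.val_rev, Fin.val_rev]
    omega
  omega

open Classical in
/-- **Windows.** Counting the partitions with fewer than `z` columns of lengths in `[m, 2 m)`. -/
theorem window_count {n m M N T z : ℕ} (hm : 2 ≤ m) (h : 2 * m ≤ n + 2)
    (hT : m * (M * (2 * m)) ≤ T) :
    ((Lam (n + 1) N).filter fun l => nx l (m - 1) < nx l (2 * m - 1) + z).card * (M + 1) ^ m ≤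
      (z + m).choose m * (Lam (n + 1) (N + T)).card := by
  have hsum : ∀ k : Fin m → Fin (M + 1), ∑ j : Fin m, (m + j) * (k j : ℕ) ≤ T := by
    intro k
    refine le_trans (Finset.sum_le_sum (g := fun _ => M * (2 * m)) ?_) ?_
    · intro j _
      have h1 : (k j : ℕ) ≤ M := by have := (k j).2; omega
      have h2 : m + (j : ℕ) ≤ 2 * m := by have := j.2; omega
      calc (m + (j : ℕ)) * (k j : ℕ) ≤ (2 * m) * M := Nat.mul_le_mul h2 h1
        _ = M * (2 * m) := Nat.mul_comm _ _
    · rw [Finset.sum_const, Finset.card_univ, Fintype.card_fin, smul_eq_mul]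
      exact hT
  set B := (Lam (n + 1) N).filter fun l => nx l (m - 1) < nx l (2 * m - 1) + z with hB
  have hcard1 : B.card * (M + 1) ^ m = (B ×ˢ (univ : Finset (Fin m → Fin (M + 1)))).card := by
    rw [Finset.card_product, Finset.card_univ, Fintype.card_fun, Fintype.card_fin,
      Fintype.card_fin]
  have hcard2 : (z + m).choose m * (Lam (n + 1) (N + T)).card =
      ((powersetCard m (range (z + m))) ×ˢ (Lam (n + 1) (N + T))).card := by
    rw [Finset.card_product, Finset.card_powersetCard, Finset.card_range]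
  rw [hcard1, hcard2]
  apply Finset.card_le_card_of_injOn (fun x => (univ.image (prof m x.1),
    upw (T - ∑ j : Fin m, (m + j) * (x.2 j : ℕ)) x.1 (fun j => (x.2 j : ℕ))))
  · rintro ⟨l, k⟩ hx
    rw [Finset.mem_coe, Finset.mem_product, hB, Finset.mem_filter, mem_Lam] at hx
    obtain ⟨⟨⟨hl1, hl2⟩, hl3⟩, _⟩ := hx
    simp only at hl1 hl2 hl3
    rw [Finset.mem_coe, Finset.mem_product, Finset.mem_powersetCard, mem_Lam]
    refine ⟨⟨?_, ?_⟩, upw_anti _ _ hl1, ?_⟩
    · intro y hy
      obtain ⟨j, _, rfl⟩ := Finset.mem_image.1 hy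
      rw [Finset.mem_range]
      simp only [prof]
      have h4 : nx l (m - 1 + (Fin.rev j : Fin m)) ≤ nx l (m - 1) :=
        nx_antitone hl1 (Nat.le_add_right _ _)
      have h5 := j.2
      omega
    · rw [Finset.card_image_of_injective _ (prof_mono hl1).injective, Finset.card_univ,
        Fintype.card_fin]
    · simp only
      rw [upw_sum _ _ _ h, hl2]
      have := hsum k
      omega
  · rintro ⟨l, k⟩ hx ⟨l', k'⟩ hx' hh
    rw [Finset.mem_coe, Finset.mem_product, hB, Finset.mem_filter, mem_Lam] at hx hx'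
    have hl := hx.1.1.1
    have hl' := hx'.1.1.1
    simp only at hl hl'
    simp only [Prod.mk.injEq] at hh
    obtain ⟨h1, h2⟩ := hh
    have h3 : prof m l = prof m l' := by
      rw [← StrictMono.range_inj (prof_mono hl) (prof_mono hl')]
      have h4 := congrArg (fun s : Finset ℕ => (s : Set ℕ)) h1
      simp only [Finset.coe_image, Finset.coe_univ, Set.image_univ] at h4
      exact h4
    have h5 : ∀ j : Fin m, nx l (m - 1 + j) - nx l (2 * m - 1) =
        nx l' (m - 1 + j) - nx l' (2 * m - 1) := by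
      intro j
      have h6 := congrFun h3 (Fin.rev j)
      simp only [prof, Fin.rev_rev] at h6
      omega
    have hend : ∀ f : Fin m → Fin (M + 1),
        (∑ j : Fin m, if 2 * m - 1 < m + (j : ℕ) then (f j : ℕ) else 0) = 0 := by
      intro f
      apply Finset.sum_eq_zero
      intro j _
      rw [if_neg (by have := j.2; omega)]
    have hk : ∀ j0 : ℕ, j0 ≤ m → ∑ j : Fin m, (if j0 ≤ (j : ℕ) then (k j : ℕ) else 0) =
        ∑ j : Fin m, (if j0 ≤ (j : ℕ) then (k' j : ℕ) else 0) := by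
      intro j0 hj0
      rcases Nat.lt_or_ge j0 m with hlt | hge
      · have e1 := congrArg (fun f => nx f (m - 1 + j0)) h2
        have e2 := congrArg (fun f => nx f (2 * m - 1)) h2
        beta_reduce at e1 e2
        rw [nx_upw _ _ _ h (by omega) (by omega), nx_upw _ _ _ h (by omega) (by omega)] at e1 e2
        rw [hend k, hend k'] at e2
        have e3 : nx l (m - 1 + j0) - nx l (2 * m - 1) =
            nx l' (m - 1 + j0) - nx l' (2 * m - 1) := h5 ⟨j0, hlt⟩
        have e4 : nx l (2 * m - 1) ≤ nx l (m - 1 + j0) := nx_antitone hl (by omega)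
        have e5 : nx l' (2 * m - 1) ≤ nx l' (m - 1 + j0) := nx_antitone hl' (by omega)
        have e6 : ∀ f : Fin m → Fin (M + 1),
            (∑ j : Fin m, if m - 1 + j0 < m + (j : ℕ) then (f j : ℕ) else 0) =
            ∑ j : Fin m, (if j0 ≤ (j : ℕ) then (f j : ℕ) else 0) := by
          intro f
          apply Finset.sum_congr rfl
          intro j _
          by_cases hj : j0 ≤ (j : ℕ)
          · rw [if_pos hj, if_pos (by omega)]
          · rw [if_neg hj, if_neg (by omega)]
        rw [e6 k, e6 k'] at e1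
        omega
      · rw [Finset.sum_eq_zero, Finset.sum_eq_zero]
        · intro j _
          rw [if_neg (by have := j.2; omega)]
        · intro j _
          rw [if_neg (by have := j.2; omega)]
    have hkk : k = k' := by
      funext j0
      have g1 := hk j0 (by have := j0.2; omega)
      have g2 := hk (j0 + 1) (by have := j0.2; omega)
      have g3 : ∀ f : Fin m → Fin (M + 1), ∑ j : Fin m, (if (j0 : ℕ) ≤ (j : ℕ) then (f j : ℕ)
          else 0) = (f j0 : ℕ) + ∑ j : Fin m, (if (j0 : ℕ) + 1 ≤ (j : ℕ) then (f j : ℕ) else 0) := by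
        intro f
        have g4 : (f j0 : ℕ) = ∑ j : Fin m, (if j = j0 then (f j : ℕ) else 0) := by
          rw [Finset.sum_ite_eq' univ j0 (fun j => (f j : ℕ)), if_pos (Finset.mem_univ _)]
        rw [g4, ← Finset.sum_add_distrib]
        apply Finset.sum_congr rfl
        intro j _
        by_cases g5 : j = j0
        · subst g5
          rw [if_pos le_rfl, if_pos rfl, if_neg (by omega), add_zero]
        · have g6 : (j : ℕ) ≠ j0 := fun h => g5 (Fin.ext h)
          rw [if_neg g5, zero_add]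
          by_cases g7 : (j0 : ℕ) ≤ j
          · rw [if_pos g7, if_pos (by omega)]
          · rw [if_neg g7, if_neg (by omega)]
      rw [g3 k, g3 k'] at g1
      apply Fin.ext
      omega
    subst hkk
    have hll : l = l' := by
      funext i
      have g1 := congrFun h2 i
      simp only [upw] at g1
      omega
    rw [hll]

open Classical in
/-- **Almost all partitions have many columns of lengths in `[m, 2 m)`.** -/
theorem window {n m b z : ℕ} (hm : 2 ≤ m) (h : 2 * m ≤ n + 2) (hab : n + 1 ≤ b)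
    (hz : 84 * (z + m) ≤ b) :
    ((((Lam (n + 1) ((n + 1) * b)).filter
      fun l => nx l (m - 1) < nx l (2 * m - 1) + z).card : ℕ) : ℝ) * 2 ^ m ≤
      16 * ((Lam (n + 1) ((n + 1) * b)).card : ℝ) := by
  obtain ⟨N, hN⟩ : ∃ N, N = (n + 1) * b := ⟨_, rfl⟩
  rw [← hN]
  obtain ⟨M, hM⟩ : ∃ M, M = b / (2 * m) := ⟨_, rfl⟩
  have hM1 : M * (2 * m) ≤ b := by
    rw [hM]
    exact Nat.div_mul_le_self b (2 * m)
  have hM2 : b < 2 * m * (M + 1) := by
    rw [hM]
    exact Nat.lt_mul_div_succ b (by omega)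
  obtain ⟨T, hT⟩ : ∃ T, T = m * (M * (2 * m)) := ⟨_, rfl⟩
  have hTb : T ≤ m * b := by
    rw [hT]
    exact Nat.mul_le_mul_left m hM1
  have hmn : m ≤ n + 1 := by omega
  have hTN : T ≤ N := hTb.trans (by rw [hN]; exact Nat.mul_le_mul_right b hmn)
  have e1 := window_count (N := N) (z := z) hm h (le_of_eq hT.symm)
  have e2 : (n + 1) ^ 2 ≤ N + T - T := by
    rw [Nat.add_sub_cancel, hN, pow_two]
    exact Nat.mul_le_mul_left _ hab
  have e3 := Vale.Agent.P181.H106.growth (n := n) (N := N + T) (T := T) e2 (by omega)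
  rw [Nat.add_sub_cancel] at e3
  have hm0 : (0 : ℝ) < m := by exact_mod_cast (by omega : 0 < m)
  have hNpos : (0 : ℝ) < ((N + T : ℕ) : ℝ) := by
    have : 0 < N := by
      rw [hN]
      exact Nat.mul_pos (by omega) (by omega)
    exact_mod_cast (by omega : 0 < N + T)
  have hE : Real.exp (2 * ((n : ℝ) + 1) * T / ((N + T : ℕ) : ℝ)) ≤ Real.exp 1 ^ (2 * m) := by
    rw [← Real.exp_nat_mul, Real.exp_le_exp, mul_one, div_le_iff₀ hNpos]
    have h1 : 2 * (n + 1) * T ≤ 2 * m * (N + T) := by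
      calc 2 * (n + 1) * T ≤ 2 * (n + 1) * (m * b) := Nat.mul_le_mul_left _ hTb
        _ = 2 * m * N := by rw [hN]; ring
        _ ≤ 2 * m * (N + T) := Nat.mul_le_mul_left _ (by omega)
    have h3 : ((2 * (n + 1) * T : ℕ) : ℝ) ≤ ((2 * m * (N + T) : ℕ) : ℝ) := by exact_mod_cast h1
    push_cast at h3 ⊢
    linarith
  have hch := Vale.Agent.P181.H179.TL.choose_le (z := z) (show 1 ≤ m by omega)
  obtain ⟨Y, hY⟩ : ∃ Y : ℝ, Y = ((z : ℝ) + m) * Real.exp 1 ^ 3 / m := ⟨_, rfl⟩
  have hY0 : 0 < Y := by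
    rw [hY]
    have := Real.exp_pos 1
    positivity
  have hYe : (((z : ℝ) + m) * Real.exp 1 / m) ^ m * Real.exp 1 ^ (2 * m) = Y ^ m := by
    rw [hY, pow_mul, ← mul_pow]
    congr 1
    ring
  have hYM : 2 * Y ≤ (M : ℝ) + 1 := by
    have h1 : 42 * (z + m) ≤ m * (M + 1) := by
      have h2 : 2 * (42 * (z + m)) ≤ 2 * (m * (M + 1)) := by
        calc 2 * (42 * (z + m)) = 84 * (z + m) := by ring
          _ ≤ b := hz
          _ ≤ 2 * m * (M + 1) := hM2.le
          _ = 2 * (m * (M + 1)) := by ring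
      omega
    have h3 : (42 : ℝ) * ((z : ℝ) + m) ≤ m * ((M : ℝ) + 1) := by exact_mod_cast h1
    have h4 : Real.exp 1 ^ 3 ≤ 21 := by
      have h5 := Real.exp_one_lt_d9
      have h6 := Real.exp_pos 1
      calc Real.exp 1 ^ 3 ≤ (2.75 : ℝ) ^ 3 := pow_le_pow_left₀ h6.le (by linarith) 3
        _ ≤ 21 := by norm_num
    rw [hY, mul_div_assoc', div_le_iff₀ hm0]
    have h5 : (0 : ℝ) ≤ (z : ℝ) + m := by positivity
    have h6 : 2 * (((z : ℝ) + m) * Real.exp 1 ^ 3) ≤ 42 * ((z : ℝ) + m) := by nlinarith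
    linarith
  obtain ⟨B, hB⟩ : ∃ B : ℝ, B = ((((Lam (n + 1) N).filter
      fun l => nx l (m - 1) < nx l (2 * m - 1) + z).card : ℕ) : ℝ) := ⟨_, rfl⟩
  have hB0 : 0 ≤ B := by
    rw [hB]
    exact Nat.cast_nonneg _
  obtain ⟨P, hP⟩ : ∃ P : ℝ, P = ((Lam (n + 1) N).card : ℝ) := ⟨_, rfl⟩
  have hP0 : 0 ≤ P := by
    rw [hP]
    exact Nat.cast_nonneg _
  rw [← hB, ← hP]
  rw [← hP] at e3
  have f1 : B * ((M : ℝ) + 1) ^ m ≤ (((z + m).choose m : ℕ) : ℝ) *
      ((Lam (n + 1) (N + T)).card : ℝ) := by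
    rw [hB]
    exact_mod_cast e1
  have f3 : B * ((M : ℝ) + 1) ^ m ≤ 16 * (Y ^ m * P) := by
    have h1 : (0 : ℝ) ≤ (((z + m).choose m : ℕ) : ℝ) := Nat.cast_nonneg _
    calc B * ((M : ℝ) + 1) ^ m ≤ (((z + m).choose m : ℕ) : ℝ) *
          ((Lam (n + 1) (N + T)).card : ℝ) := f1
      _ ≤ (((z + m).choose m : ℕ) : ℝ) *
          (16 * Real.exp (2 * ((n : ℝ) + 1) * T / ((N + T : ℕ) : ℝ)) * P) :=
          mul_le_mul_of_nonneg_left e3 h1
      _ ≤ (((z + m).choose m : ℕ) : ℝ) * (16 * Real.exp 1 ^ (2 * m) * P) := by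
          apply mul_le_mul_of_nonneg_left _ h1
          apply mul_le_mul_of_nonneg_right _ hP0
          exact mul_le_mul_of_nonneg_left hE (by norm_num)
      _ ≤ (((z : ℝ) + m) * Real.exp 1 / m) ^ m * (16 * Real.exp 1 ^ (2 * m) * P) := by
          apply mul_le_mul_of_nonneg_right hch
          have := Real.exp_pos 1
          positivity
      _ = 16 * (((((z : ℝ) + m) * Real.exp 1 / m) ^ m * Real.exp 1 ^ (2 * m)) * P) := by ring
      _ = 16 * (Y ^ m * P) := by rw [hYe]
  have hYm : 0 < Y ^ m := pow_pos hY0 m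
  have f4 : (B * 2 ^ m) * Y ^ m ≤ (16 * P) * Y ^ m := by
    calc (B * 2 ^ m) * Y ^ m = B * (2 * Y) ^ m := by rw [mul_pow]; ring
      _ ≤ B * ((M : ℝ) + 1) ^ m :=
          mul_le_mul_of_nonneg_left (pow_le_pow_left₀ (by positivity) hYM m) hB0
      _ ≤ 16 * (Y ^ m * P) := f3
      _ = (16 * P) * Y ^ m := by ring
  exact le_of_mul_le_mul_right f4 hYm

end Vale.Agent.P181.H186
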