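import Vale.Agent.P181.H186.Win

/-!
P181: almost all partitions have many columns of medium length and many long columns.
-/

set_option autoImplicit false

namespace Vale.Agent.P181.H186

open Finset Filter Topology Vale.Agent.P181.H676

open Classical in
/-- Summing over dyadic windows. -/
theorem windows {n m b z : ℕ} (hm : 2 ≤ m) (hab : n + 1 ≤ b) (J : ℕ) (h : m * 2 ^ J ≤ n + 2)
    (hz : 84 * (z + m * 2 ^ J) ≤ b) :
    ((((Lam (n + 1) ((n + 1) * b)).filter
      fun l => nx l (m - 1) < nx l (m * 2 ^ J - 1) + J * z).card : ℕ) : ℝ) * 2 ^ m ≤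
      32 * (1 - (1 / 2) ^ J) * ((Lam (n + 1) ((n + 1) * b)).card : ℝ) := by
  induction J with
  | zero =>
    have : ((Lam (n + 1) ((n + 1) * b)).filter
        fun l => nx l (m - 1) < nx l (m * 2 ^ 0 - 1) + 0 * z) = ∅ := by
      refine Finset.filter_eq_empty_iff.2 ?_
      intro l _
      simp
    rw [this]
    simp
  | succ J ih =>
    have e0 : m * 2 ^ (J + 1) = 2 * (m * 2 ^ J) := by ring
    have hpos : 1 ≤ 2 ^ J := Nat.one_le_two_pow
    have hmJ : m ≤ m * 2 ^ J := Nat.le_mul_of_pos_right _ hpos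
    rw [e0] at h hz
    have h1 := ih (by omega) (by omega)
    have h2 := window (n := n) (m := m * 2 ^ J) (b := b) (z := z) (by omega) h hab (by omega)
    set L := Lam (n + 1) ((n + 1) * b) with hL
    have h3 : (L.filter fun l => nx l (m - 1) < nx l (m * 2 ^ (J + 1) - 1) + (J + 1) * z).card ≤
        (L.filter fun l => nx l (m - 1) < nx l (m * 2 ^ J - 1) + J * z).card +
        (L.filter fun l => nx l (m * 2 ^ J - 1) < nx l (2 * (m * 2 ^ J) - 1) + z).card := by
      refine le_trans (Finset.card_le_card ?_) (Finset.card_union_le _ _)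
      intro l hl
      rw [Finset.mem_filter] at hl
      rw [Finset.mem_union, Finset.mem_filter, Finset.mem_filter]
      by_cases hc : nx l (m - 1) < nx l (m * 2 ^ J - 1) + J * z
      · exact Or.inl ⟨hl.1, hc⟩
      · refine Or.inr ⟨hl.1, ?_⟩
        have h4 := hl.2
        rw [e0] at h4
        have h5 : (J + 1) * z = J * z + z := by ring
        omega
    have h6 : (2 : ℝ) ^ m * 2 ^ J ≤ 2 ^ (m * 2 ^ J) := by
      rw [← pow_add]
      refine pow_le_pow_right₀ (by norm_num) ?_
      have h7 : J + 1 ≤ 2 ^ J := Nat.lt_two_pow_self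
      calc m + J ≤ m * 1 + m * J := by nlinarith
        _ = m * (J + 1) := by ring
        _ ≤ m * 2 ^ J := Nat.mul_le_mul_left _ h7
    set x : ℝ := (((L.filter fun l => nx l (m * 2 ^ J - 1) <
      nx l (2 * (m * 2 ^ J) - 1) + z).card : ℕ) : ℝ) with hx
    have hx0 : 0 ≤ x := Nat.cast_nonneg _
    have h2J : (0 : ℝ) < 2 ^ J := by positivity
    have h8 : x * 2 ^ m ≤ 16 * (1 / 2) ^ J * (L.card : ℝ) := by
      have h9 : x * 2 ^ m * 2 ^ J ≤ 16 * (L.card : ℝ) := by
        calc x * 2 ^ m * 2 ^ J = x * (2 ^ m * 2 ^ J) := by ring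
          _ ≤ x * 2 ^ (m * 2 ^ J) := mul_le_mul_of_nonneg_left h6 hx0
          _ ≤ 16 * (L.card : ℝ) := h2
      have h10 : (1 / 2 : ℝ) ^ J = 1 / 2 ^ J := by rw [one_div_pow]
      rw [h10, show 16 * (1 / (2 : ℝ) ^ J) * (L.card : ℝ) = 16 * (L.card : ℝ) / 2 ^ J by ring,
        le_div_iff₀ h2J]
      exact h9
    have h11 : (((L.filter fun l => nx l (m - 1) <
        nx l (m * 2 ^ (J + 1) - 1) + (J + 1) * z).card : ℕ) : ℝ) ≤
        (((L.filter fun l => nx l (m - 1) < nx l (m * 2 ^ J - 1) + J * z).card : ℕ) : ℝ) + x := by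
      rw [hx]
      exact_mod_cast h3
    have h12 : (0 : ℝ) < 2 ^ m := by positivity
    calc (((L.filter fun l => nx l (m - 1) <
          nx l (m * 2 ^ (J + 1) - 1) + (J + 1) * z).card : ℕ) : ℝ) * 2 ^ m
        ≤ ((((L.filter fun l => nx l (m - 1) <
          nx l (m * 2 ^ J - 1) + J * z).card : ℕ) : ℝ) + x) * 2 ^ m :=
          mul_le_mul_of_nonneg_right h11 h12.le
      _ = (((L.filter fun l => nx l (m - 1) <
          nx l (m * 2 ^ J - 1) + J * z).card : ℕ) : ℝ) * 2 ^ m + x * 2 ^ m := by ring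
      _ ≤ 32 * (1 - (1 / 2) ^ J) * (L.card : ℝ) + 16 * (1 / 2) ^ J * (L.card : ℝ) :=
          add_le_add h1 h8
      _ = 32 * (1 - (1 / 2) ^ (J + 1)) * (L.card : ℝ) := by rw [pow_succ]; ring

open Classical in
/-- Almost all partitions have at least `A b` columns of lengths in `[m, R + 1)`. -/
theorem block {n m b R A : ℕ} (hm : 2 ≤ m) (hab : n + 1 ≤ b) (hR : R ≤ n + 1)
    (h : m * 2 ^ (336 * A) ≤ R + 1) (hb : 168 * (R + 1) ≤ b) :
    ((((Lam (n + 1) ((n + 1) * b)).filter
      fun l => nx l (m - 1) < nx l R + A * b).card : ℕ) : ℝ) * 2 ^ m ≤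
      32 * ((Lam (n + 1) ((n + 1) * b)).card : ℝ) := by
  obtain ⟨z, hz⟩ : ∃ z, z = b / 168 := ⟨_, rfl⟩
  have hz1 : z * 168 ≤ b := by
    rw [hz]
    exact Nat.div_mul_le_self b 168
  have hz2 : b < 168 * (z + 1) := by
    rw [hz]
    exact Nat.lt_mul_div_succ b (by norm_num)
  have hz3 : 1 ≤ z := by omega
  have h1 := windows (n := n) (m := m) (b := b) (z := z) hm hab (336 * A) (by omega) (by omega)
  have h2 : A * b ≤ 336 * A * z := by
    calc A * b ≤ A * (336 * z) := Nat.mul_le_mul_left _ (by omega)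
      _ = 336 * A * z := by ring
  have h3 : ((Lam (n + 1) ((n + 1) * b)).filter
      fun l => nx l (m - 1) < nx l R + A * b).card ≤
      ((Lam (n + 1) ((n + 1) * b)).filter
      fun l => nx l (m - 1) < nx l (m * 2 ^ (336 * A) - 1) + 336 * A * z).card := by
    refine Finset.card_le_card ?_
    intro l hl
    rw [Finset.mem_filter] at hl ⊢
    refine ⟨hl.1, ?_⟩
    have h4 : nx l R ≤ nx l (m * 2 ^ (336 * A) - 1) :=
      nx_antitone (mem_Lam.1 hl.1).1 (by omega)
    have := hl.2
    omega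
  have h5 : (0 : ℝ) ≤ ((Lam (n + 1) ((n + 1) * b)).card : ℝ) := Nat.cast_nonneg _
  calc ((((Lam (n + 1) ((n + 1) * b)).filter
        fun l => nx l (m - 1) < nx l R + A * b).card : ℕ) : ℝ) * 2 ^ m
      ≤ ((((Lam (n + 1) ((n + 1) * b)).filter
      fun l => nx l (m - 1) < nx l (m * 2 ^ (336 * A) - 1) + 336 * A * z).card : ℕ) : ℝ) * 2 ^ m :=
        mul_le_mul_of_nonneg_right (by exact_mod_cast h3) (by positivity)
    _ ≤ 32 * (1 - (1 / 2) ^ (336 * A)) * ((Lam (n + 1) ((n + 1) * b)).card : ℝ) := h1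
    _ ≤ 32 * ((Lam (n + 1) ((n + 1) * b)).card : ℝ) := by
        refine mul_le_mul_of_nonneg_right ?_ h5
        have : (0 : ℝ) ≤ (1 / 2) ^ (336 * A) := by positivity
        linarith

/-- Few boxes in the first rows. -/
theorem lower_rows {a N R Λ : ℕ} {l : Fin a → ℕ} (hsum : ∑ i, l i = N) (hl : ∀ i, l i ≤ Λ)
    (h : 2 * (R * Λ) ≤ N) : N ≤ 2 * ∑ i : Fin a, (if R ≤ (i : ℕ) then l i else 0) := by
  have h1 : ∑ i : Fin a, (if R ≤ (i : ℕ) then l i else 0) +
      ∑ i : Fin a, (if R ≤ (i : ℕ) then 0 else l i) = N := by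
    rw [← Finset.sum_add_distrib, ← hsum]
    apply Finset.sum_congr rfl
    intro i _
    by_cases hi : R ≤ (i : ℕ)
    · rw [if_pos hi, if_pos hi, add_zero]
    · rw [if_neg hi, if_neg hi, zero_add]
  have h2 : ∑ i : Fin a, (if R ≤ (i : ℕ) then 0 else l i) ≤ R * Λ := by
    calc ∑ i : Fin a, (if R ≤ (i : ℕ) then 0 else l i)
        ≤ ∑ i : Fin a, (if (i : ℕ) < R then Λ else 0) := by
          apply Finset.sum_le_sum
          intro i _
          by_cases hi : R ≤ (i : ℕ)
          · rw [if_pos hi]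
            exact Nat.zero_le _
          · rw [if_neg hi, if_pos (by omega)]
            exact hl i
      _ = (univ.filter fun i : Fin a => (i : ℕ) < R).card * Λ := by
          rw [← Finset.sum_filter, Finset.sum_const, smul_eq_mul]
      _ ≤ R * Λ := by
          apply Nat.mul_le_mul_right
          have h3 : ((univ.filter fun i : Fin a => (i : ℕ) < R).map Fin.valEmbedding) ⊆ range R := by
            intro x hx
            rw [Finset.mem_map] at hx
            obtain ⟨i, hi, rfl⟩ := hx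
            rw [Finset.mem_filter] at hi
            exact Finset.mem_range.2 hi.2
          have h4 := Finset.card_le_card h3
          rwa [Finset.card_map, Finset.card_range] at h4
  omega

end Vale.Agent.P181.H186
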