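import Vale.Agent.P181.H186.Win2

/-!
P181: the consumer form of the window estimates.
-/

set_option autoImplicit false

namespace Vale.Agent.P181.H186

open Finset Filter Topology Vale.Agent.P181.H676

/-- Row `i` of a partition, zero beyond the end. -/
def ex {a : ℕ} (l : Fin a → ℕ) (i : ℕ) : ℕ := if h : i < a then l ⟨i, h⟩ else 0

theorem ex_eq_nx {n : ℕ} (l : Fin (n + 1) → ℕ) (i : ℕ) : ex l i = nx l i := rfl

open Classical in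
/-- The estimate from the numerical side conditions. -/
theorem e24_core {n b R R1 R' K : ℕ} (hab : n + 1 ≤ b) (h1 : 1 ≤ R1) (hR1 : R1 ≤ R)
    (h2 : (R1 + 1) * 2 ^ (336 * K) ≤ R + 1) (h3 : (R + 1) * 2 ^ (336 * (2 * K)) ≤ R' + 1)
    (hR' : R' ≤ n + 1) (h4 : 168 * (R' + 1) ≤ b) :
    ((((Lam (n + 1) ((n + 1) * b)).filter
      fun l => ¬ (nx l R + K * b ≤ nx l R1 ∧ K * ((n + 1) + b) ≤ nx l R)).card : ℕ) : ℝ) *
        2 ^ R1 ≤ 64 * ((Lam (n + 1) ((n + 1) * b)).card : ℝ) := by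
  have hpow : 1 ≤ 2 ^ (336 * (2 * K)) := Nat.one_le_two_pow
  have hRR : R + 1 ≤ R' + 1 := le_trans (Nat.le_mul_of_pos_right _ hpow) h3
  have e1 := block (n := n) (m := R1 + 1) (b := b) (R := R) (A := K) (by omega) hab (by omega) h2
    (by omega)
  have e2 := block (n := n) (m := R + 1) (b := b) (R := R') (A := 2 * K) (by omega) hab hR' h3 h4
  rw [Nat.add_sub_cancel] at e1 e2
  set L := Lam (n + 1) ((n + 1) * b) with hL
  have h5 : (L.filter fun l => ¬ (nx l R + K * b ≤ nx l R1 ∧ K * ((n + 1) + b) ≤ nx l R)).card ≤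
      (L.filter fun l => nx l R1 < nx l R + K * b).card +
      (L.filter fun l => nx l R < nx l R' + 2 * K * b).card := by
    refine le_trans (Finset.card_le_card ?_) (Finset.card_union_le _ _)
    intro l hl
    rw [Finset.mem_filter] at hl
    rw [Finset.mem_union, Finset.mem_filter, Finset.mem_filter]
    by_cases hc : nx l R1 < nx l R + K * b
    · exact Or.inl ⟨hl.1, hc⟩
    · refine Or.inr ⟨hl.1, ?_⟩
      by_contra hd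
      apply hl.2
      have h6 : K * ((n + 1) + b) ≤ 2 * K * b := by
        calc K * ((n + 1) + b) ≤ K * (b + b) := Nat.mul_le_mul_left _ (by omega)
          _ = 2 * K * b := by ring
      constructor
      · omega
      · omega
  have hP : (0 : ℝ) ≤ (L.card : ℝ) := Nat.cast_nonneg _
  set x : ℝ := (((L.filter fun l => nx l R1 < nx l R + K * b).card : ℕ) : ℝ) with hx
  set y : ℝ := (((L.filter fun l => nx l R < nx l R' + 2 * K * b).card : ℕ) : ℝ) with hy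
  have hx0 : 0 ≤ x := Nat.cast_nonneg _
  have hy0 : 0 ≤ y := Nat.cast_nonneg _
  have h7 : (((L.filter fun l => ¬ (nx l R + K * b ≤ nx l R1 ∧
      K * ((n + 1) + b) ≤ nx l R)).card : ℕ) : ℝ) ≤ x + y := by
    rw [hx, hy]
    exact_mod_cast h5
  have h8 : (2 : ℝ) ^ R1 ≤ 2 ^ (R1 + 1) := pow_le_pow_right₀ (by norm_num) (by omega)
  have h9 : (2 : ℝ) ^ R1 ≤ 2 ^ (R + 1) := pow_le_pow_right₀ (by norm_num) (by omega)
  calc (((L.filter fun l => ¬ (nx l R + K * b ≤ nx l R1 ∧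
        K * ((n + 1) + b) ≤ nx l R)).card : ℕ) : ℝ) * 2 ^ R1
      ≤ (x + y) * 2 ^ R1 := mul_le_mul_of_nonneg_right h7 (by positivity)
    _ = x * 2 ^ R1 + y * 2 ^ R1 := by ring
    _ ≤ x * 2 ^ (R1 + 1) + y * 2 ^ (R + 1) :=
        add_le_add (mul_le_mul_of_nonneg_left h8 hx0) (mul_le_mul_of_nonneg_left h9 hy0)
    _ ≤ 32 * (L.card : ℝ) + 32 * (L.card : ℝ) := add_le_add e1 e2
    _ = 64 * (L.card : ℝ) := by ring

/-- The numerical side conditions hold eventually. -/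
theorem e24_num (δ : ℝ) (h0 : 0 < δ) (h1 : δ < 1) (K : ℕ) : ∀ᶠ a : ℕ in atTop,
    1 ≤ ⌊(a : ℝ) ^ (δ / 2)⌋₊ ∧ ⌊(a : ℝ) ^ (δ / 2)⌋₊ ≤ ⌊(a : ℝ) ^ δ⌋₊ ∧
    (⌊(a : ℝ) ^ (δ / 2)⌋₊ + 1) * 2 ^ (336 * K) ≤ ⌊(a : ℝ) ^ δ⌋₊ + 1 ∧
    (⌊(a : ℝ) ^ δ⌋₊ + 1) * 2 ^ (336 * (2 * K)) ≤ a / 400 + 1 ∧
    a / 400 ≤ a ∧ 168 * (a / 400 + 1) ≤ a := by
  have t1 : Tendsto (fun a : ℕ => (a : ℝ) ^ (δ / 2)) atTop atTop :=
    (tendsto_rpow_atTop (by linarith)).comp tendsto_natCast_atTop_atTop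
  have t2 : Tendsto (fun a : ℕ => (a : ℝ) ^ (1 - δ)) atTop atTop :=
    (tendsto_rpow_atTop (by linarith)).comp tendsto_natCast_atTop_atTop
  filter_upwards [t1.eventually_ge_atTop (2 * 2 ^ (336 * K)),
    t2.eventually_ge_atTop (800 * 2 ^ (336 * (2 * K))), eventually_ge_atTop 400] with a ha1 ha2 ha3
  have ha : (0 : ℝ) < a := by exact_mod_cast (by omega : 0 < a)
  have ha' : (1 : ℝ) ≤ a := by exact_mod_cast (by omega : 1 ≤ a)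
  set x : ℝ := (a : ℝ) ^ (δ / 2) with hx
  set y : ℝ := (a : ℝ) ^ δ with hy
  have hxy : x * x = y := by
    rw [hx, hy, ← Real.rpow_add ha]
    congr 1
    ring
  have hC : (1 : ℝ) ≤ 2 ^ (336 * K) := one_le_pow₀ (by norm_num)
  have hC' : (1 : ℝ) ≤ 2 ^ (336 * (2 * K)) := one_le_pow₀ (by norm_num)
  have hx1 : 1 ≤ x := by linarith
  have hy1 : 1 ≤ y := by rw [← hxy]; nlinarith
  have hxley : x ≤ y := by rw [← hxy]; nlinarith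
  have hya : y * (a : ℝ) ^ (1 - δ) = a := by
    rw [hy, ← Real.rpow_add ha]
    have : δ + (1 - δ) = 1 := by ring
    rw [this, Real.rpow_one]
  refine ⟨?_, ?_, ?_, ?_, ?_, ?_⟩
  · exact Nat.le_floor (by exact_mod_cast hx1)
  · exact Nat.floor_le_floor hxley
  · have h2 : ((⌊x⌋₊ : ℕ) : ℝ) ≤ x := Nat.floor_le (by linarith)
    have h3 : y < ((⌊y⌋₊ : ℕ) : ℝ) + 1 := Nat.lt_floor_add_one y
    have h4 : (((⌊x⌋₊ : ℕ) : ℝ) + 1) * 2 ^ (336 * K) ≤ y := by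
      calc (((⌊x⌋₊ : ℕ) : ℝ) + 1) * 2 ^ (336 * K) ≤ (2 * x) * 2 ^ (336 * K) :=
            mul_le_mul_of_nonneg_right (by linarith) (by linarith)
        _ = x * (2 * 2 ^ (336 * K)) := by ring
        _ ≤ x * x := mul_le_mul_of_nonneg_left ha1 (by linarith)
        _ = y := hxy
    have h5 : ((((⌊x⌋₊ + 1) * 2 ^ (336 * K) : ℕ)) : ℝ) ≤ (((⌊y⌋₊ + 1 : ℕ)) : ℝ) := by
      push_cast
      linarith
    exact_mod_cast h5
  · have h2 : ((⌊y⌋₊ : ℕ) : ℝ) ≤ y := Nat.floor_le (by linarith)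
    have h3 : (((⌊y⌋₊ : ℕ) : ℝ) + 1) * 2 ^ (336 * (2 * K)) * 400 ≤ a := by
      calc (((⌊y⌋₊ : ℕ) : ℝ) + 1) * 2 ^ (336 * (2 * K)) * 400
          ≤ (2 * y) * 2 ^ (336 * (2 * K)) * 400 := by
            apply mul_le_mul_of_nonneg_right _ (by norm_num)
            exact mul_le_mul_of_nonneg_right (by linarith) (by linarith)
        _ = y * (800 * 2 ^ (336 * (2 * K))) := by ring
        _ ≤ y * (a : ℝ) ^ (1 - δ) := mul_le_mul_of_nonneg_left ha2 (by linarith)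
        _ = a := hya
    have h4 : (⌊y⌋₊ + 1) * 2 ^ (336 * (2 * K)) * 400 ≤ a := by exact_mod_cast h3
    have h5 : (⌊y⌋₊ + 1) * 2 ^ (336 * (2 * K)) ≤ a / 400 := by
      rw [Nat.le_div_iff_mul_le (by norm_num)]
      exact h4
    omega
  · exact Nat.div_le_self _ _
  · omega

open Classical in
/-- **(E2) and (E4).** -/
theorem e24_Lam (δ : ℝ) (h0 : 0 < δ) (h1 : δ < 1) (K : ℕ) : ∀ᶠ a : ℕ in atTop, ∀ b n : ℕ,
    a ≤ b → a = n + 1 →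
    ((((Lam (n + 1) ((n + 1) * b)).filter
      fun l => ¬ (nx l ⌊(a : ℝ) ^ δ⌋₊ + K * b ≤ nx l ⌊(a : ℝ) ^ (δ / 2)⌋₊ ∧
        K * ((n + 1) + b) ≤ nx l ⌊(a : ℝ) ^ δ⌋₊)).card : ℕ) : ℝ) *
        2 ^ ⌊(a : ℝ) ^ (δ / 2)⌋₊ ≤ 64 * ((Lam (n + 1) ((n + 1) * b)).card : ℝ) := by
  filter_upwards [e24_num δ h0 h1 K] with a ha b n hab hn
  obtain ⟨c1, c2, c3, c4, c5, c6⟩ := ha
  exact e24_core (R' := a / 400) (by omega) c1 c2 c3 c4 (by omega) (by omega)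

theorem setOf_eq_Lam {a N : ℕ} :
    {l : Fin a → ℕ | Antitone l ∧ ∑ i, l i = N} = ((Lam a N : Finset (Fin a → ℕ)) : Set _) := by
  ext l
  rw [Set.mem_ofPred_eq, Finset.mem_coe, mem_Lam]

open Classical in
/-- **(E2) and (E4)**, in the language of sets. -/
theorem e24 (δ : ℝ) (h0 : 0 < δ) (h1 : δ < 1) (K : ℕ) : ∀ᶠ a : ℕ in atTop, ∀ b : ℕ, a ≤ b →
    (({l : Fin a → ℕ | (Antitone l ∧ ∑ i, l i = a * b) ∧
      ¬ (ex l ⌊(a : ℝ) ^ δ⌋₊ + K * b ≤ ex l ⌊(a : ℝ) ^ (δ / 2)⌋₊ ∧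
        K * (a + b) ≤ ex l ⌊(a : ℝ) ^ δ⌋₊)}.ncard : ℕ) : ℝ) * 2 ^ ⌊(a : ℝ) ^ (δ / 2)⌋₊ ≤
      64 * (({l : Fin a → ℕ | Antitone l ∧ ∑ i, l i = a * b}.ncard : ℕ) : ℝ) := by
  filter_upwards [e24_Lam δ h0 h1 K, eventually_ge_atTop 1] with a ha ha1 b hab
  obtain ⟨n, rfl⟩ : ∃ n, a = n + 1 := ⟨a - 1, by omega⟩
  have h2 := ha b n hab rfl
  have e1 : {l : Fin (n + 1) → ℕ | (Antitone l ∧ ∑ i, l i = (n + 1) * b) ∧
      ¬ (ex l ⌊((n + 1 : ℕ) : ℝ) ^ δ⌋₊ + K * b ≤ ex l ⌊((n + 1 : ℕ) : ℝ) ^ (δ / 2)⌋₊ ∧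
        K * ((n + 1) + b) ≤ ex l ⌊((n + 1 : ℕ) : ℝ) ^ δ⌋₊)} =
      (((Lam (n + 1) ((n + 1) * b)).filter
      fun l => ¬ (nx l ⌊((n + 1 : ℕ) : ℝ) ^ δ⌋₊ + K * b ≤ nx l ⌊((n + 1 : ℕ) : ℝ) ^ (δ / 2)⌋₊ ∧
        K * ((n + 1) + b) ≤ nx l ⌊((n + 1 : ℕ) : ℝ) ^ δ⌋₊) : Finset _) : Set _) := by
    ext l
    rw [Set.mem_ofPred_eq, Finset.mem_coe, Finset.mem_filter, mem_Lam]
    rfl
  rw [e1, setOf_eq_Lam, Set.ncard_coe_finset, Set.ncard_coe_finset]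
  exact h2

end Vale.Agent.P181.H186
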